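import Crest.Agent.R307.Edge.A1bx

set_option autoImplicit false
set_option linter.unusedSimpArgs false
set_option linter.unusedTactic false
set_option linter.unusedVariables false

namespace Crest.Agent.R307.Edge.A1b

open Crest.Agent.KB

/-- the point -/
def xv (x0 x1 x2 : ℝ) : ℕ → ℝ
  | 0 => x0
  | 1 => x1
  | _ => x2

theorem core (x0 x1 x2 : ℝ) (hx0 : (0 : ℝ) / 256 ≤ x0) (hx0' : x0 ≤ (256 : ℝ) / 256) (hx1 : (0 : ℝ) / 256 ≤ x1) (hx1' : x1 ≤ (101 : ℝ) / 256) (hx2 : (139 : ℝ) / 256 ≤ x2) (hx2' : x2 ≤ (180 : ℝ) / 256) :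
    (0 ≤ TN.val (xv x0 x1 x2) (fun _ => 1)) := by
  obtain ⟨cl, hcl, h⟩ := run_sound _ _ _ _ _ _ _ _ run_ok (xv x0 x1 x2) (by
    intro i hi
    interval_cases i <;> norm_num [ba, bb, xv] <;> constructor <;> linarith)
  simp only [List.mem_cons, List.not_mem_nil, or_false] at hcl
  subst hcl
  exact h TN (by simp)

theorem vals (x0 x1 x2 v r b P M N AA V N3 B D Q F Y Z T : ℝ)
    (hv : x0 = 1 * v)
    (hr : x1 = 1 * r)
    (hb : x2 = 1 * b)
    (hP : P = (((1 : ℝ) + r) * ((1 : ℝ) + r)))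
    (hM : M = (((1 : ℝ) - r) * ((1 : ℝ) - r)))
    (hN : N = ((1 : ℝ) + (r * r)))
    (hAA : AA = (P * M))
    (hV : V = (v * v))
    (hN3 : N3 = ((N * N) * N))
    (hB : B = ((N * N) - (b * AA)))
    (hD : D = (M + (V * P)))
    (hQ : Q = (((2 : ℝ) * N) + (V * P)))
    (hF : F = ((((2 : ℝ) * r) * D) + (M * Q)))
    (hY : Y = ((N * M) + (r * D)))
    (hZ : Z = ((((2 : ℝ) * Y) * ((B * D) + ((((2 : ℝ) * b) * v) * (AA * N)))) + (v * ((N3 * (D * D)) - ((b * AA) * (Q * F))))))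
    (hT : T = ((((Q * (B * B)) * (D * D)) * (F * F)) - (P * (Z * Z))))
    :
    TN.val (xv x0 x1 x2) (fun _ => 1) = 1 * T := by
  set X := (xv x0 x1 x2) with hX
  have e0 : X 0 = x0 := rfl
  have e1 : X 1 = x1 := rfl
  have e2 : X 2 = x2 := rfl
  have vvN : vN.val X (fun _ => 1) = 1 * v := by
    simp only [vN, Ex.val, e0, e1, e2]; rw [← hv]; push_cast; ring
  have vrN : rN.val X (fun _ => 1) = 1 * r := by
    simp only [rN, Ex.val, e0, e1, e2]; rw [← hr]; push_cast; ring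
  have vbN : bN.val X (fun _ => 1) = 1 * b := by
    simp only [bN, Ex.val, e0, e1, e2]; rw [← hb]; push_cast; ring
  clear_value X
  have vPN : PN.val X (fun _ => 1) = 1 * P := by
    simp only [PN, Ex.val, vrN]; rw [hP]; push_cast; ring
  have vMN : MN.val X (fun _ => 1) = 1 * M := by
    simp only [MN, Ex.val, vrN]; rw [hM]; push_cast; ring
  have vNN : NN.val X (fun _ => 1) = 1 * N := by
    simp only [NN, Ex.val, vrN]; rw [hN]; push_cast; ring
  have vAAN : AAN.val X (fun _ => 1) = 1 * AA := by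
    simp only [AAN, Ex.val, vPN, vMN]; rw [hAA]; push_cast; ring
  have vVN : VN.val X (fun _ => 1) = 1 * V := by
    simp only [VN, Ex.val, vvN]; rw [hV]; push_cast; ring
  have vN3N : N3N.val X (fun _ => 1) = 1 * N3 := by
    simp only [N3N, Ex.val, vNN]; rw [hN3]; push_cast; ring
  have vBN : BN.val X (fun _ => 1) = 1 * B := by
    simp only [BN, Ex.val, vNN, vbN, vAAN]; rw [hB]; push_cast; ring
  have vDN : DN.val X (fun _ => 1) = 1 * D := by
    simp only [DN, Ex.val, vMN, vVN, vPN]; rw [hD]; push_cast; ring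
  have vQN : QN.val X (fun _ => 1) = 1 * Q := by
    simp only [QN, Ex.val, vNN, vVN, vPN]; rw [hQ]; push_cast; ring
  have vFN : FN.val X (fun _ => 1) = 1 * F := by
    simp only [FN, Ex.val, vrN, vDN, vMN, vQN]; rw [hF]; push_cast; ring
  have vYN : YN.val X (fun _ => 1) = 1 * Y := by
    simp only [YN, Ex.val, vNN, vMN, vrN, vDN]; rw [hY]; push_cast; ring
  have vZN : ZN.val X (fun _ => 1) = 1 * Z := by
    simp only [ZN, Ex.val, vYN, vBN, vDN, vbN, vvN, vAAN, vNN, vN3N, vQN, vFN]; rw [hZ]; push_cast; ring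
  have vTN : TN.val X (fun _ => 1) = 1 * T := by
    simp only [TN, Ex.val, vQN, vBN, vDN, vFN, vPN, vZN]; rw [hT]; push_cast; ring
  exact vTN

theorem main (x0 x1 x2 v r b P M N AA V N3 B D Q F Y Z T : ℝ) (hx0 : (0 : ℝ) / 256 ≤ x0) (hx0' : x0 ≤ (256 : ℝ) / 256) (hx1 : (0 : ℝ) / 256 ≤ x1) (hx1' : x1 ≤ (101 : ℝ) / 256) (hx2 : (139 : ℝ) / 256 ≤ x2) (hx2' : x2 ≤ (180 : ℝ) / 256)
    (hv : x0 = 1 * v)
    (hr : x1 = 1 * r)
    (hb : x2 = 1 * b)
    (hP : P = (((1 : ℝ) + r) * ((1 : ℝ) + r)))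
    (hM : M = (((1 : ℝ) - r) * ((1 : ℝ) - r)))
    (hN : N = ((1 : ℝ) + (r * r)))
    (hAA : AA = (P * M))
    (hV : V = (v * v))
    (hN3 : N3 = ((N * N) * N))
    (hB : B = ((N * N) - (b * AA)))
    (hD : D = (M + (V * P)))
    (hQ : Q = (((2 : ℝ) * N) + (V * P)))
    (hF : F = ((((2 : ℝ) * r) * D) + (M * Q)))
    (hY : Y = ((N * M) + (r * D)))
    (hZ : Z = ((((2 : ℝ) * Y) * ((B * D) + ((((2 : ℝ) * b) * v) * (AA * N)))) + (v * ((N3 * (D * D)) - ((b * AA) * (Q * F))))))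
    (hT : T = ((((Q * (B * B)) * (D * D)) * (F * F)) - (P * (Z * Z))))
    :
    (0 ≤ T) := by
  have hv := vals x0 x1 x2 v r b P M N AA V N3 B D Q F Y Z T hv hr hb hP hM hN hAA hV hN3 hB hD hQ hF hY hZ hT
  have hc := core x0 x1 x2 hx0 hx0' hx1 hx1' hx2 hx2'
  have w0 := hv
  simp only [w0] at hc
  have a0 := hc
  exact nonneg_of_mul_nonneg_right a0 (by positivity)

end Crest.Agent.R307.Edge.A1b
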