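import Crest.Agent.Tools.KB

set_option autoImplicit false

namespace Crest.Agent.R307.Edge.B0s

open Crest.Agent.KB

def vN : Ex := (.X 0 1)
def rN : Ex := (.X 1 1)
def bN : Ex := (.X 2 1)
def PN : Ex := (.mul (.add (.mul (.W 1 1) (.c (1))) rN) (.add (.mul (.W 1 1) (.c (1))) rN))
def MN : Ex := (.mul (.sub (.mul (.W 1 1) (.c (1))) rN) (.sub (.mul (.W 1 1) (.c (1))) rN))
def NN : Ex := (.add (.mul (.W 1 2) (.c (1))) (.mul rN rN))
def AAN : Ex := (.mul PN MN)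
def VN : Ex := (.mul vN vN)
def N3N : Ex := (.mul (.mul NN NN) NN)
def BN : Ex := (.sub (.mul (.W 2 1) (.mul NN NN)) (.mul bN AAN))
def DN : Ex := (.add (.mul (.W 0 2) MN) (.mul VN PN))
def QN : Ex := (.add (.mul (.W 0 2) (.mul (.mul (.c (2)) NN) MN)) (.mul VN (.mul PN PN)))
def FN : Ex := (.sub QN (.mul (.W 1 1) (.mul (.mul (.c (2)) rN) DN)))
def YN : Ex := (.mul (.mul MN NN) (.add (.mul (.mul VN PN) NN) (.mul (.W 1 1) (.mul rN DN))))
def EN : Ex := (.add (.mul (.mul VN (.mul PN PN)) QN) (.mul (.W 1 1) (.mul (.W 0 2) (.mul (.mul (.mul (.c (2)) rN) MN) (.sub QN (.mul NN DN))))))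
def ZN : Ex := (.sub (.add (.mul (.W 0 3) (.mul (.mul (.mul (.mul (.c (2)) MN) YN) (.add (.mul BN DN) (.mul (.W 0 1) (.mul (.mul (.mul (.c (2)) bN) vN) (.mul AAN NN))))) FN)) (.mul (.W 2 1) (.mul (.mul (.mul (.mul vN PN) N3N) (.mul DN DN)) EN))) (.mul (.mul (.mul bN vN) AAN) (.mul QN (.mul EN FN))))
def TN : Ex := (.sub (.mul (.mul (.mul QN (.mul BN BN)) (.mul DN DN)) (.mul (.mul EN FN) (.mul EN FN))) (.mul ZN ZN))

set_option maxRecDepth 100000 in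
theorem run_ok : run 3 572 8 [19, 41, 3] [512, 202, 360] [[TN]]
    (.leaf 0) [(0, 256), (0, 101), (76, 180)] = true := by
  decide +kernel

end Crest.Agent.R307.Edge.B0s
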